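import Mathlib

/-!
P337: definitions for the statement.

* `PolyTime`, `PPO`, `CHlevel`, `CH`: polynomial time, the class `PP^A`, the counting hierarchy;
* `Poly`, `Fml`, `ETR`: existential sentences over the reals and their encoding by bit strings.
-/

namespace Vale.Agent.P337

/-! ### polynomial time, oracles, PP and the counting hierarchy -/

/-- a language: a set of bit strings -/
abbrev Lang := Set (List Bool)

/-- `f` is computed by a (multi-stack) Turing machine in polynomial time -/
def PolyTime (f : List Bool → List Bool) : Prop :=
  Nonempty (Turing.TM2ComputableInPolyTime (id : List Bool → List Bool) (id : List Bool → List Bool) f)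

/-- the pair of two words: every bit of `x` doubled, the mark `10`, then `y` -/
def pair (x y : List Bool) : List Bool :=
  (x.flatMap fun b => [b, b]) ++ true :: false :: y

/-- Does the oracle computation `δ` with oracle `A` accept the input `w` with at most `t` further
steps, if the oracle gave the answers `ans` so far?  The next move of the computation is
`δ (pair w ans)`: it is `true :: q` (ask the oracle whether `q ∈ A` and append the answer to `ans`),
or `[false, true]` (halt and accept), or anything else (halt and reject). -/
def Accepts (A : Lang) (δ : List Bool → List Bool) (w : List Bool) : ℕ → List Bool → Prop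
  | 0, _ => False
  | t + 1, ans =>
    (∃ q, δ (pair w ans) = true :: q ∧
      ((q ∈ A ∧ Accepts A δ w t (ans ++ [true])) ∨ (q ∉ A ∧ Accepts A δ w t (ans ++ [false])))) ∨
    δ (pair w ans) = [false, true]

/-- the class `PP^A`: on the input `x` and uniformly random coins `y` of length `m(|x|)` a
polynomial time oracle computation accepts with probability `> 1/2` iff `x ∈ L` -/
def PPO (A : Lang) : Set Lang :=
  {L | ∃ (δ : List Bool → List Bool) (t m : Polynomial ℕ), PolyTime δ ∧ ∀ x : List Bool,
    (x ∈ L ↔ 2 ^ m.eval x.length <
      2 * Nat.card {y : List Bool // y.length = m.eval x.length ∧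
        Accepts A δ (pair x y) (t.eval x.length) []})}

/-- the levels of the counting hierarchy: `C_0 = P`, `C_{j+1}` = union of `PP^A`, `A ∈ C_j` -/
def CHlevel : ℕ → Set Lang
  | 0 => {L | ∃ f : List Bool → List Bool, PolyTime f ∧ ∀ x, (x ∈ L ↔ f x = [true])}
  | j + 1 => {L | ∃ A ∈ CHlevel j, L ∈ PPO A}

/-- the counting hierarchy -/
def CH : Set Lang := ⋃ j, CHlevel j

/-! ### existential sentences over the reals -/

/-- a monomial: sign, binary digits of the absolute value of the coefficient (least significant
digit first), exponents of `x_0, x_1, ...` -/
structure Mono where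
  neg : Bool
  coef : List Bool
  exps : List ℕ

/-- the number with the given binary digits, least significant digit first -/
def bval : List Bool → ℕ
  | [] => 0
  | b :: l => b.toNat + 2 * bval l

/-- a polynomial with integer coefficients: a list of monomials -/
abbrev Poly := List Mono

/-- value of a monomial -/
noncomputable def Mono.eval (m : Mono) (x : ℕ → ℝ) : ℝ :=
  (if m.neg then -1 else 1) * (bval m.coef : ℝ) *
    ∏ i ∈ Finset.range m.exps.length, x i ^ m.exps.getD i 0

/-- value of a polynomial -/
noncomputable def Poly.eval (p : Poly) (x : ℕ → ℝ) : ℝ := (List.map (fun m => Mono.eval m x) p).sum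

/-- quantifier free formulas: atoms `p = 0`, `p > 0`, and NOT, AND, OR -/
inductive Fml : Type
  | eqz (p : Poly)
  | pos (p : Poly)
  | not (φ : Fml)
  | and (φ ψ : Fml)
  | or (φ ψ : Fml)

/-- truth of a formula at a point -/
def Fml.holds : Fml → (ℕ → ℝ) → Prop
  | eqz p, x => Poly.eval p x = 0
  | pos p, x => 0 < Poly.eval p x
  | not φ, x => ¬ φ.holds x
  | and φ ψ, x => φ.holds x ∧ ψ.holds x
  | or φ ψ, x => φ.holds x ∨ ψ.holds x

/-- truth of the existential sentence `∃ x, φ(x)` -/
def Fml.Sat (φ : Fml) : Prop := ∃ x : ℕ → ℝ, φ.holds x

/-- the letters used to write formulas -/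
inductive Sym : Type
  | plus | minus | zero | one | tick | sep | eqz | pos | not | and | or
  deriving DecidableEq

/-- four bits for a letter -/
def Sym.code : Sym → List Bool
  | plus => [false, false, false, false]
  | minus => [false, false, false, true]
  | zero => [false, false, true, false]
  | one => [false, false, true, true]
  | tick => [false, true, false, false]
  | sep => [false, true, false, true]
  | eqz => [false, true, true, false]
  | pos => [false, true, true, true]
  | not => [true, false, false, false]
  | and => [true, false, false, true]
  | or => [true, false, true, false]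

/-- a monomial as a word: the sign, the binary digits of the coefficient, and the exponents in
unary, each followed by a separator -/
def Mono.word (m : Mono) : List Sym :=
  (if m.neg then Sym.minus else Sym.plus) :: (m.coef.map fun b => if b then Sym.one else Sym.zero) ++
    m.exps.flatMap fun n => List.replicate n Sym.tick ++ [Sym.sep]

/-- a polynomial as a word -/
def Poly.word (p : Poly) : List Sym := List.flatMap Mono.word p

/-- a formula as a word (postfix notation) -/
def Fml.word : Fml → List Sym
  | eqz p => Poly.word p ++ [Sym.eqz]
  | pos p => Poly.word p ++ [Sym.pos]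
  | not φ => φ.word ++ [Sym.not]
  | and φ ψ => φ.word ++ ψ.word ++ [Sym.and]
  | or φ ψ => φ.word ++ ψ.word ++ [Sym.or]

/-- the bit string encoding a formula -/
def Fml.bits (φ : Fml) : List Bool := φ.word.flatMap Sym.code

/-- the existential theory of the reals: the bit strings encoding true existential sentences -/
def ETR : Lang := {w | ∃ φ : Fml, φ.bits = w ∧ φ.Sat}

end Vale.Agent.P337
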