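import Mathlib
import Vale.Agent.Lib.P337.Cx.BNat

/-!
P337: the formula computing the decisive integer modulo a prime `r`.
-/

namespace Vale.Agent.P337

open MvPolynomial

/-- internal monomials: sign, absolute value of the coefficient, exponents -/
abbrev IMono := (Bool × BNat) × List ℕ

/-- internal polynomials -/
abbrev IPoly := List IMono

/-- coefficient of an internal monomial -/
def IMono.coef (m : IMono) : ℤ := (if m.1.1 then -1 else 1) * (m.1.2.v : ℤ)

/-- the polynomial of an internal monomial, in the variables `x_0, ..., x_{N-1}` -/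
noncomputable def IMono.toMv (N : ℕ) (m : IMono) : MvPolynomial (Fin N) ℤ :=
  monomial (Finsupp.equivFunOnFinite.symm fun i : Fin N => m.2.getD i 0) (IMono.coef m)

/-- the polynomial of an internal polynomial -/
noncomputable def IPoly.toMv (N : ℕ) (q : IPoly) : MvPolynomial (Fin N) ℤ :=
  (List.map (fun m => IMono.toMv N m) q).sum

/-- the sum of the squares of a list of internal polynomials -/
noncomputable def sqs (N : ℕ) (qs : List IPoly) : MvPolynomial (Fin N) ℤ :=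
  (List.map (fun q => IPoly.toMv N q ^ 2) qs).sum

/-- the parameters -/
structure Prm where
  /-- number of variables -/
  N : ℕ
  e : ℕ
  /-- `Λ = 2 ^ 2 ^ EL` -/
  EL : ℕ
  /-- `s = 2 ^ 2 ^ Es` -/
  Es : ℕ
  /-- scaling factor `2 ^ 2 ^ ES` of the derivatives -/
  ES : ℕ
  /-- threshold `2 ^ 2 ^ EC` for the critical value -/
  EC : ℕ
  qs : List IPoly
  K : ℕ
  M : ℕ
  kap : ℕ
  a : ℕ
  a' : ℕ
  Z : ℕ
  Th : ℕ
  w0 : ℕ
  rho : ℕ
  q : ℕ
  r : ℕ

namespace Prm

variable (P : Prm)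

/-- exponent of the leading monomials -/
def d : ℕ := 2 * P.e - 1

/-- dimension of the algebra -/
def D : ℕ := P.d ^ P.N

/-- the large factor -/
def L : ℕ := 2 ^ 2 ^ P.EL

/-- coefficients of the linear perturbation -/
def b (i : ℕ) : ℕ := 2 ^ 2 ^ P.Es * 2 ^ (i * P.d)

/-- the sum of squares -/
noncomputable def p : MvPolynomial (Fin P.N) ℤ := sqs P.N P.qs

/-- weights -/
def w (k : ℕ) : ℕ := if k = 0 then P.w0 else if P.q = 0 then 0 else P.rho ^ k % P.q

/-- the point with coordinates `z i`, modulo `r` -/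
def pt (z : ℕ → ℕ) : Fin P.N → ZMod P.r := fun i => (z i : ZMod P.r)

/-- extension of a vector by zero -/
def ext {N : ℕ} (z : Fin N → ℕ) : ℕ → ℕ := fun i => if h : i < N then z ⟨i, h⟩ else 0

/-- value of `p` modulo `r` -/
noncomputable def ev0 (z : ℕ → ℕ) : ZMod P.r :=
  MvPolynomial.eval (P.pt z) (MvPolynomial.map (Int.castRingHom _) P.p)

/-- value of the `i`-th partial derivative of `p` modulo `r` -/
noncomputable def ev1 (i : ℕ) (z : ℕ → ℕ) : ZMod P.r :=
  if hi : i < P.N then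
    MvPolynomial.eval (P.pt z) (MvPolynomial.map (Int.castRingHom _) (pderiv ⟨i, hi⟩ P.p))
  else 0

/-- value of the second partial derivatives of `p` modulo `r` -/
noncomputable def ev2 (i j : ℕ) (z : ℕ → ℕ) : ZMod P.r :=
  if hi : i < P.N then
    if hj : j < P.N then
      MvPolynomial.eval (P.pt z) (MvPolynomial.map (Int.castRingHom _)
        (pderiv ⟨j, hj⟩ (pderiv ⟨i, hi⟩ P.p)))
    else 0
  else 0

/-- the perturbed function -/
noncomputable def gz (z : ℕ → ℕ) : ZMod P.r :=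
  ((2 * P.e * P.L : ℕ) : ZMod P.r) * P.ev0 z + ∑ i ∈ Finset.range P.N, (z i : ZMod P.r) ^ (2 * P.e) +
    ∑ i ∈ Finset.range P.N, ((2 * P.e * P.b i : ℕ) : ZMod P.r) * (z i : ZMod P.r)

/-- right hand sides of the gradient system `x_i ^ d = H_i` -/
noncomputable def Hz (i : ℕ) (z : ℕ → ℕ) : ZMod P.r :=
  -(((P.L : ℕ) : ZMod P.r) * P.ev1 i z) - ((P.b i : ℕ) : ZMod P.r)

/-- entries of the Jacobian matrix -/
noncomputable def Jent (i j : ℕ) (z : ℕ → ℕ) : ZMod P.r :=
  (if i = j then ((P.d : ℕ) : ZMod P.r) * (z i : ZMod P.r) ^ (P.d - 1) else 0) +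
    ((P.L : ℕ) : ZMod P.r) * P.ev2 i j z

/-- the Jacobian determinant -/
noncomputable def Jz (z : ℕ → ℕ) : ZMod P.r :=
  Matrix.det (Matrix.of fun i j : Fin P.N => P.Jent i j z)

/-- the weight of a point in the trace formula -/
noncomputable def Tz (z : ℕ → ℕ) : ZMod P.r :=
  P.Jz z * ∏ i ∈ Finset.range P.N, ∑ k ∈ Finset.range (P.K + 1),
    P.Hz i z ^ k * ((z i : ZMod P.r)⁻¹) ^ (P.d * (k + 1) - 1)

/-- the trace formula -/
noncomputable def trz (F : (ℕ → ℕ) → ZMod P.r) : ZMod P.r :=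
  (-1) ^ P.N * ∑ z ∈ Fintype.piFinset (fun _ : Fin P.N => Finset.Ico 1 P.r),
    F (ext z) * P.Tz (ext z)

/-- power sums of `g` -/
noncomputable def pw (j : ℕ) : ZMod P.r := P.trz (fun z => P.gz z ^ j)

/-- elementary symmetric functions from power sums -/
noncomputable def expF (S : ℕ → ZMod P.r) (j : ℕ) : ZMod P.r :=
  ∑ l ∈ Finset.range (j + 1), ((l.factorial : ℕ) : ZMod P.r)⁻¹ *
    (-∑ x ∈ Finset.Ico 1 P.r,
      (∑ i ∈ Finset.Ico 1 (P.D + 1),
        (-1) ^ (i - 1) * S i * ((i : ℕ) : ZMod P.r)⁻¹ * ((x : ℕ) : ZMod P.r) ^ i) ^ l *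
        (((x : ℕ) : ZMod P.r)⁻¹) ^ j)

/-- the `k`-th derivative of the characteristic polynomial of `g` at `x` -/
noncomputable def fd (k : ℕ) (x : ZMod P.r) : ZMod P.r :=
  ∑ j ∈ Finset.range (P.D + 1), (-1) ^ j * P.expF P.pw j *
    (((P.D - j).descFactorial k : ℕ) : ZMod P.r) * x ^ (P.D - j - k)

/-- the scaled functions whose signs are used -/
noncomputable def yz (k : ℕ) (x : ZMod P.r) : ZMod P.r :=
  ((2 ^ 2 ^ P.ES : ℕ) : ZMod P.r) *
    (if k = 0 then ((2 ^ 2 ^ P.EC : ℕ) : ZMod P.r) - x else P.fd k x)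

/-- Newman type products -/
noncomputable def Pmz (y : ZMod P.r) : ZMod P.r :=
  ∏ i ∈ Finset.range (P.M + 1), (y - 2 ^ i) ^ (2 * P.kap)

/-- Newman type products -/
noncomputable def Ppz (y : ZMod P.r) : ZMod P.r :=
  ∏ i ∈ Finset.range (P.M + 1), (y + 2 ^ i) ^ (2 * P.kap)

/-- denominators -/
noncomputable def Bz (k : ℕ) (x : ZMod P.r) : ZMod P.r :=
  (P.a : ZMod P.r) * P.Pmz (P.yz k x) + (P.a' : ZMod P.r) * P.Ppz (P.yz k x)

/-- the isolating polynomial at `x` -/
noncomputable def PPz (x : ZMod P.r) : ZMod P.r :=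
  (∑ k ∈ Finset.range P.D, ((P.Z * P.w k * P.a : ℕ) : ZMod P.r) * P.Pmz (P.yz k x) *
    ∏ j ∈ Finset.range P.D, if j = k then 1 else P.Bz j x) -
    (P.Th : ZMod P.r) * ∏ j ∈ Finset.range P.D, P.Bz j x

/-- the decisive number modulo `r` -/
noncomputable def form : ZMod P.r :=
  P.expF (fun k => P.trz (fun z => P.PPz (P.gz z) ^ k)) P.D

end Prm

end Vale.Agent.P337
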