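import Mathlib

/-!
P337, third formulation.

* `PolyTime`, `pairing`, `C`: polynomial time and the levels of the counting hierarchy;
* `Poly`, `Formula`, `ETR`: existential sentences over the reals and their encoding.
-/

namespace Vale.Agent.P337Three

/-! ### the counting hierarchy -/

/-- `f` is computed by a Turing machine in polynomial time (Mathlib) -/
def PolyTime (f : List Bool → List Bool) : Prop :=
  Nonempty (Turing.TM2ComputableInPolyTime (id : List Bool → List Bool) (id : List Bool → List Bool) f)

/-- two words as one word: every bit of `x` doubled, the mark `10`, then `y` -/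
def pairing (x y : List Bool) : List Bool :=
  (x.flatMap fun b => [b, b]) ++ true :: false :: y

/-- The levels of the counting hierarchy. `C 0` is `P`. A language `L` is in `C (j + 1)` if there
are a language `A` in `C j` and a polynomial `m` such that `x ∈ L` exactly when the machine which
flips `m(|x|)` fair coins `y`, asks the oracle `A` the one question `(x, y)` and returns its answer
accepts `x` with probability `> 1/2`; in particular `L` is in `PP^A` -/
def C : ℕ → Set (Set (List Bool))
  | 0 => {L | ∃ f : List Bool → List Bool, PolyTime f ∧ ∀ x, x ∈ L ↔ f x = [true]}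
  | j + 1 => {L | ∃ A ∈ C j, ∃ m : Polynomial ℕ, ∀ x : List Bool, x ∈ L ↔
      2 ^ m.eval x.length <
        2 * Nat.card {y : List Bool // y.length = m.eval x.length ∧ pairing x y ∈ A}}

/-! ### existential sentences over the reals -/

/-- polynomials with integer coefficients: explicit lists of monomials, where `(c, [e₀, e₁, …])`
is the monomial `c * x₀ ^ e₀ * x₁ ^ e₁ * …` -/
abbrev Poly := List (ℤ × List ℕ)

/-- the value of a polynomial -/
noncomputable def Poly.val (p : Poly) (x : ℕ → ℝ) : ℝ :=
  (List.map (fun m : ℤ × List ℕ =>
    (m.1 : ℝ) * ∏ i ∈ Finset.range m.2.length, x i ^ m.2.getD i 0) p).sum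

/-- quantifier free formulas: atoms `p = 0` and `p > 0`, and NOT, AND, OR -/
inductive Formula : Type
  | eqZero (p : Poly)
  | gtZero (p : Poly)
  | not (φ : Formula)
  | and (φ ψ : Formula)
  | or (φ ψ : Formula)

/-- truth of a formula at a point -/
def Formula.Holds : Formula → (ℕ → ℝ) → Prop
  | eqZero p, x => Poly.val p x = 0
  | gtZero p, x => Poly.val p x > 0
  | not φ, x => ¬ φ.Holds x
  | and φ ψ, x => φ.Holds x ∧ ψ.Holds x
  | or φ ψ, x => φ.Holds x ∨ ψ.Holds x

/-- the letter number `k` (for `k < 16`), written with four bits -/
def letter (k : ℕ) : List Bool := [k.testBit 3, k.testBit 2, k.testBit 1, k.testBit 0]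

/-- an integer in binary: letter `0` (sign plus) or `1` (sign minus), then the binary digits of the
absolute value (letters `2` for the digit 0 and `3` for the digit 1), least significant first -/
def codeInt (c : ℤ) : List Bool :=
  (if c < 0 then letter 1 else letter 0) ++
    (Nat.bits c.natAbs).flatMap fun b => if b then letter 3 else letter 2

/-- a polynomial: every coefficient in binary, followed by its exponents in unary (`e` times the
letter `4`), each closed by the letter `5` -/
def Poly.code (p : Poly) : List Bool :=
  List.flatMap (fun m : ℤ × List ℕ => codeInt m.1 ++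
    m.2.flatMap fun e => (List.replicate e (letter 4)).flatten ++ letter 5) p

/-- a formula: the letters `6, 7, 8, 9, 10` mean `= 0`, `> 0`, NOT, AND, OR and are written after
their arguments -/
def Formula.code : Formula → List Bool
  | eqZero p => Poly.code p ++ letter 6
  | gtZero p => Poly.code p ++ letter 7
  | not φ => φ.code ++ letter 8
  | and φ ψ => φ.code ++ ψ.code ++ letter 9
  | or φ ψ => φ.code ++ ψ.code ++ letter 10

/-- the existential theory of the reals: the codes of the true existential sentences -/
def ETR : Set (List Bool) := {w | ∃ φ : Formula, φ.code = w ∧ ∃ x : ℕ → ℝ, φ.Holds x}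

end Vale.Agent.P337Three
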