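import Mathlib
import Vale.Agent.Lib.P337.Final
import Vale.Agent.Lib.P337.ThreeDefs

/-!
P337, third formulation: proofs.
-/

namespace Vale.Agent.P337Three

open Vale.Agent.P337 (pair cnt cnt_take InC CHp CHp_ETR level_exists_bound exists_unpair Sym Mono Fml bval
  RMono Tok exists_parse polyTime_of_PT)
open Vale.Agent.Lib.Common.PolyTime hiding bval

/-! ### the levels -/

theorem pairing_eq (x y : List Bool) : pairing x y = pair x y := rfl

theorem mem_C_of_InC (j : ℕ) : ∀ A : List Bool → Prop, InC j A → {w : List Bool | A w} ∈ C j := by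
  induction j with
  | zero =>
    rintro A ⟨f, hf, hA⟩
    refine ⟨fun w => [f w], polyTime_of_PT (PT.cons hf (PT.const [])), fun w => ?_⟩
    rw [Set.mem_ofPred_eq, hA w]
    simp
  | succ j ih =>
    rintro A ⟨l, B, hl, hB, hA⟩
    obtain ⟨u, hu, hu'⟩ := exists_unpair
    obtain ⟨m, hm⟩ := level_exists_bound hl
    have hf : PT (fun v : List Bool => ((u v).1, (u v).2.take (l (u v).1))) :=
      PT.pair (PT.fst hu) (PT.take (PT.snd hu) (PT.comp hl (PT.fst hu)))
    have hO := ih _ (hB.pre hf)
    refine ⟨_, hO, m, fun x => ?_⟩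
    rw [Set.mem_ofPred_eq, hA x]
    obtain ⟨d, hd⟩ := Nat.exists_eq_add_of_le (hm x)
    have h1 : Nat.card {y : List Bool // y.length = m.eval x.length ∧
        pairing x y ∈ {w : List Bool | B ((u w).1, (u w).2.take (l (u w).1))}} =
        cnt (m.eval x.length) (fun y => B (x, y.take (l x))) := by
      unfold cnt
      congr 1
      congr 1
      funext y
      rw [Set.mem_ofPred_eq, pairing_eq, hu']
    rw [h1, hd, cnt_take (l x) d (fun y => B (x, y)), pow_add]
    have h2 : (0 : ℕ) < 2 ^ d := by positivity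
    constructor
    · intro h
      calc 2 ^ l x * 2 ^ d < (2 * cnt (l x) fun y => B (x, y)) * 2 ^ d :=
            Nat.mul_lt_mul_of_pos_right h h2
        _ = 2 * (2 ^ d * cnt (l x) fun y => B (x, y)) := by ring
    · intro h
      have h3 : 2 ^ l x * 2 ^ d < (2 * cnt (l x) fun y => B (x, y)) * 2 ^ d := by
        calc 2 ^ l x * 2 ^ d < 2 * (2 ^ d * cnt (l x) fun y => B (x, y)) := h
          _ = (2 * cnt (l x) fun y => B (x, y)) * 2 ^ d := by ring
      exact Nat.lt_of_mul_lt_mul_right h3

/-! ### canonical binary digits -/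

theorem bval_bits (n : ℕ) : bval (Nat.bits n) = n := by
  induction n using Nat.binaryRec' with
  | zero => simp [bval]
  | bit b n h ih =>
    rw [Nat.bits_append_bit n b h, bval, ih, Nat.bit_val]
    ring

/-- no superfluous digit -/
def canD (d : List Bool) : Bool := decide (d.getD (d.length - 1) true = true)

theorem bits_bval : ∀ d : List Bool, canD d = true → Nat.bits (bval d) = d ∧ (d ≠ [] → bval d ≠ 0)
  | [], _ => by simp [bval]
  | [b], h => by
    have hb : b = true := by simpa [canD] using h
    subst hb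
    simp [bval]
  | b :: c :: l, h => by
    have h1 : canD (c :: l) = true := by
      simpa [canD] using h
    obtain ⟨h2, h3⟩ := bits_bval (c :: l) h1
    have h4 : bval (c :: l) ≠ 0 := h3 (List.cons_ne_nil _ _)
    have h5 : bval (b :: c :: l) = Nat.bit b (bval (c :: l)) := by
      rw [Nat.bit_val]
      change b.toNat + 2 * bval (c :: l) = _
      ring
    rw [h5]
    refine ⟨?_, fun _ => ?_⟩
    · rw [Nat.bits_append_bit _ _ (fun h => absurd h h4), h2]
    · rw [Nat.bit_val]
      omega

/-- canonical raw monomials: no superfluous digits, no negative zero -/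
def canM (m : RMono) : Bool := canD m.1.2 && (decide (m.1.1 = false) || decide (0 < m.1.2.length))

/-- canonical lists of tokens -/
def canT (T : List Tok) : Bool :=
  decide ((T.filter fun t => decide (0 < (t.2.filter fun m => !(canM m)).length)).length = 0)

theorem PT_canT : PT canT := by
  unfold canT canM canD
  fun_prop

theorem canT_append (S T : List Tok) : canT (S ++ T) = true ↔ canT S = true ∧ canT T = true := by
  unfold canT
  rw [List.filter_append, List.length_append, decide_eq_true_iff, decide_eq_true_iff,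
    decide_eq_true_iff]
  omega

theorem canT_single (k : ℕ) (p : List RMono) : canT [(k, p)] = true ↔ ∀ m ∈ p, canM m = true := by
  unfold canT
  rw [decide_eq_true_iff, List.length_eq_zero_iff, List.filter_eq_nil_iff]
  constructor
  · intro h m hm
    by_contra hc
    refine h (k, p) (List.mem_singleton.2 rfl) ?_
    rw [decide_eq_true_iff]
    refine List.length_pos_of_mem (a := m) (List.mem_filter.2 ⟨hm, ?_⟩)
    simpa using hc
  · intro h t ht
    rw [List.mem_singleton.1 ht, decide_eq_true_iff, not_lt, Nat.le_zero, List.length_eq_zero_iff,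
      List.filter_eq_nil_iff]
    intro m hm
    simp [h m hm]

/-! ### translation -/

/-- translation of monomials -/
def ofInt (m : ℤ × List ℕ) : Mono := ⟨decide (m.1 < 0), Nat.bits m.1.natAbs, m.2⟩

/-- translation of formulas -/
def toFml : Formula → Fml
  | .eqZero p => .eqz (List.map ofInt p)
  | .gtZero p => .pos (List.map ofInt p)
  | .not φ => .not (toFml φ)
  | .and φ ψ => .and (toFml φ) (toFml ψ)
  | .or φ ψ => .or (toFml φ) (toFml ψ)

theorem code_mono (m : ℤ × List ℕ) : (ofInt m).word.flatMap Sym.code = codeInt m.1 ++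
    m.2.flatMap fun e => (List.replicate e (letter 4)).flatten ++ letter 5 := by
  unfold Mono.word ofInt codeInt
  rw [List.flatMap_append, List.flatMap_cons]
  congr 1
  · congr 1
    · by_cases h : m.1 < 0
      · simp only [h, decide_true, if_true]
        rfl
      · simp only [h, decide_false, if_false]
        rfl
    · rw [List.flatMap_map]
      congr 1
      funext b
      cases b <;> rfl
  · rw [List.flatMap_assoc]
    congr 1
    funext e
    rw [List.flatMap_append]
    congr 1
    · induction e with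
      | zero => rfl
      | succ e ih =>
        rw [List.replicate_succ, List.replicate_succ, List.flatMap_cons, List.flatten_cons, ih]
        rfl

theorem code_poly (p : Poly) :
    (Vale.Agent.P337.Poly.word (List.map ofInt p)).flatMap Sym.code = Poly.code p := by
  unfold Vale.Agent.P337.Poly.word Poly.code
  rw [List.flatMap_assoc, List.flatMap_map]
  congr 1
  funext m
  exact code_mono m

theorem code_toFml (φ : Formula) : (toFml φ).bits = φ.code := by
  unfold Fml.bits
  induction φ with
  | eqZero p =>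
    change (Vale.Agent.P337.Poly.word (List.map ofInt p) ++ [Sym.eqz]).flatMap Sym.code =
      Poly.code p ++ letter 6
    rw [List.flatMap_append, code_poly]
    rfl
  | gtZero p =>
    change (Vale.Agent.P337.Poly.word (List.map ofInt p) ++ [Sym.pos]).flatMap Sym.code =
      Poly.code p ++ letter 7
    rw [List.flatMap_append, code_poly]
    rfl
  | not φ ih =>
    change ((toFml φ).word ++ [Sym.not]).flatMap Sym.code = φ.code ++ letter 8
    rw [List.flatMap_append, ih]
    rfl
  | and φ ψ ih1 ih2 =>
    change ((toFml φ).word ++ (toFml ψ).word ++ [Sym.and]).flatMap Sym.code =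
      φ.code ++ ψ.code ++ letter 9
    rw [List.flatMap_append, List.flatMap_append, ih1, ih2]
    rfl
  | or φ ψ ih1 ih2 =>
    change ((toFml φ).word ++ (toFml ψ).word ++ [Sym.or]).flatMap Sym.code =
      φ.code ++ ψ.code ++ letter 10
    rw [List.flatMap_append, List.flatMap_append, ih1, ih2]
    rfl

theorem eval_ofInt (m : ℤ × List ℕ) (x : ℕ → ℝ) : (ofInt m).eval x =
    (m.1 : ℝ) * ∏ i ∈ Finset.range m.2.length, x i ^ m.2.getD i 0 := by
  unfold Mono.eval ofInt
  simp only [bval_bits, decide_eq_true_eq]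
  congr 1
  have h1 : ((m.1.natAbs : ℕ) : ℝ) = |(m.1 : ℝ)| := by
    rw [Nat.cast_natAbs, Int.cast_abs]
  rw [h1]
  split_ifs with h
  · have h2 : (m.1 : ℝ) < 0 := by exact_mod_cast h
    rw [abs_of_neg h2]
    ring
  · have h2 : (0 : ℝ) ≤ (m.1 : ℝ) := by exact_mod_cast not_lt.1 h
    rw [abs_of_nonneg h2, one_mul]

theorem eval_poly (p : Poly) (x : ℕ → ℝ) :
    Vale.Agent.P337.Poly.eval (List.map ofInt p) x = Poly.val p x := by
  unfold Vale.Agent.P337.Poly.eval Poly.val
  rw [List.map_map]
  congr 1
  apply List.map_congr_left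
  intro m _
  exact eval_ofInt m x

theorem holds_toFml (φ : Formula) (x : ℕ → ℝ) : (toFml φ).holds x ↔ φ.Holds x := by
  induction φ with
  | eqZero p =>
    change Vale.Agent.P337.Poly.eval (List.map ofInt p) x = 0 ↔ Poly.val p x = 0
    rw [eval_poly]
  | gtZero p =>
    change 0 < Vale.Agent.P337.Poly.eval (List.map ofInt p) x ↔ Poly.val p x > 0
    rw [eval_poly]
  | not φ ih => exact not_congr ih
  | and φ ψ ih1 ih2 => exact and_congr ih1 ih2
  | or φ ψ ih1 ih2 => exact or_congr ih1 ih2

theorem canM_ofInt (m : ℤ × List ℕ) : canM (ofInt m).raw = true := by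
  have h0 : ∀ n : ℕ, canD (Nat.bits n) = true := by
    intro n
    induction n using Nat.binaryRec' with
    | zero => simp [canD]
    | bit b n h ih =>
      rw [Nat.bits_append_bit n b h]
      cases hn : Nat.bits n with
      | nil =>
        have hn0 : n = 0 := by
          rw [← bval_bits n, hn]
          rfl
        simp [canD, h hn0]
      | cons c l =>
        rw [hn] at ih
        simpa [canD] using ih
  unfold canM
  rw [Bool.and_eq_true]
  refine ⟨h0 _, ?_⟩
  by_cases h : m.1 < 0
  · have h1 : Nat.bits m.1.natAbs ≠ [] := by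
      intro h2
      have h3 := bval_bits m.1.natAbs
      rw [h2] at h3
      have h4 : m.1.natAbs = 0 := h3.symm
      omega
    rw [Bool.or_eq_true]
    right
    rw [decide_eq_true_iff]
    exact List.length_pos_of_ne_nil h1
  · rw [Bool.or_eq_true]
    left
    rw [decide_eq_true_iff]
    exact decide_eq_false h

theorem ofInt_of_canM (m : Mono) (h : canM m.raw = true) : ∃ z, ofInt z = m := by
  unfold canM at h
  rw [Bool.and_eq_true, Bool.or_eq_true, decide_eq_true_iff, decide_eq_true_iff] at h
  obtain ⟨h1, h2⟩ := h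
  obtain ⟨neg, coef, exps⟩ := m
  have h1' : canD coef = true := h1
  have h2' : neg = false ∨ 0 < coef.length := h2
  obtain ⟨h3, h4⟩ := bits_bval coef h1'
  cases hneg : neg with
  | false =>
    refine ⟨((bval coef : ℤ), exps), ?_⟩
    unfold ofInt
    have h6 : decide ((bval coef : ℤ) < 0) = false :=
      decide_eq_false (not_lt.2 (Int.natCast_nonneg _))
    simp only [Int.natAbs_natCast, h3, h6]
  | true =>
    rw [hneg] at h2'
    have h5 : coef ≠ [] := List.ne_nil_of_length_pos (by simpa using h2')
    refine ⟨(-(bval coef : ℤ), exps), ?_⟩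
    unfold ofInt
    simp only [Int.natAbs_neg, Int.natAbs_natCast, h3]
    congr 1
    have h6 := h4 h5
    exact decide_eq_true (by omega)

theorem list_lift {p : List Mono} (h : ∀ m ∈ p, ∃ z, ofInt z = m) : ∃ q, List.map ofInt q = p := by
  induction p with
  | nil => exact ⟨[], rfl⟩
  | cons m p ih =>
    obtain ⟨z, hz⟩ := h m List.mem_cons_self
    obtain ⟨q, hq⟩ := ih fun n hn => h n (List.mem_cons_of_mem _ hn)
    exact ⟨z :: q, by rw [List.map_cons, hz, hq]⟩

theorem canT_toFml (φ : Formula) : canT (toFml φ).toks = true := by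
  have h2 : ∀ k : ℕ, canT [(k, [])] = true := fun k => (canT_single k []).2 fun m hm => by simp at hm
  have hp : ∀ (k : ℕ) (p : Poly), canT [(k, List.map Mono.raw (List.map ofInt p))] = true := by
    intro k p
    rw [canT_single]
    intro m hm
    rw [List.map_map] at hm
    obtain ⟨z, _, rfl⟩ := List.mem_map.1 hm
    exact canM_ofInt z
  induction φ with
  | eqZero p => exact hp 0 p
  | gtZero p => exact hp 1 p
  | not φ ih => exact (canT_append _ _).2 ⟨ih, h2 2⟩
  | and φ ψ ih1 ih2 => exact (canT_append _ _).2 ⟨(canT_append _ _).2 ⟨ih1, ih2⟩, h2 3⟩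
  | or φ ψ ih1 ih2 => exact (canT_append _ _).2 ⟨(canT_append _ _).2 ⟨ih1, ih2⟩, h2 4⟩

theorem toFml_of_canT (φ : Fml) (h : canT φ.toks = true) : ∃ ψ, toFml ψ = φ := by
  have hp : ∀ (k : ℕ) (p : List Mono), canT [(k, List.map Mono.raw p)] = true →
      ∃ q, List.map ofInt q = p := by
    intro k p hk
    rw [canT_single] at hk
    exact list_lift fun m hm => ofInt_of_canM m (hk _ (List.mem_map_of_mem hm))
  induction φ with
  | eqz p =>
    obtain ⟨q, hq⟩ := hp 0 p h
    exact ⟨.eqZero q, congrArg Fml.eqz hq⟩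
  | pos p =>
    obtain ⟨q, hq⟩ := hp 1 p h
    exact ⟨.gtZero q, congrArg Fml.pos hq⟩
  | not φ ih =>
    obtain ⟨ψ, hψ⟩ := ih ((canT_append _ _).1 h).1
    exact ⟨.not ψ, congrArg Fml.not hψ⟩
  | and φ ψ ih1 ih2 =>
    have h1 := (canT_append _ _).1 ((canT_append _ _).1 h).1
    obtain ⟨a, ha⟩ := ih1 h1.1
    obtain ⟨b, hb⟩ := ih2 h1.2
    exact ⟨.and a b, congrArg₂ Fml.and ha hb⟩
  | or φ ψ ih1 ih2 =>
    have h1 := (canT_append _ _).1 ((canT_append _ _).1 h).1
    obtain ⟨a, ha⟩ := ih1 h1.1
    obtain ⟨b, hb⟩ := ih2 h1.2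
    exact ⟨.or a b, congrArg₂ Fml.or ha hb⟩

theorem CHp_ETR3 : CHp (fun w : List Bool => w ∈ ETR) := by
  obtain ⟨parse, hparse, hp⟩ := exists_parse
  have key : ∀ w : List Bool, (canT (parse w) = true ∧ w ∈ Vale.Agent.P337.ETR) ↔ w ∈ ETR := by
    intro w
    constructor
    · rintro ⟨h1, φ, hφ, x, hx⟩
      rw [← hφ, hp] at h1
      obtain ⟨ψ, rfl⟩ := toFml_of_canT φ h1
      exact ⟨ψ, by rw [← code_toFml, hφ], x, (holds_toFml ψ x).1 hx⟩
    · rintro ⟨ψ, hψ, x, hx⟩
      refine ⟨?_, toFml ψ, by rw [code_toFml, hψ], x, (holds_toFml ψ x).2 hx⟩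
      rw [← hψ, ← code_toFml, hp]
      exact canT_toFml ψ
  refine CHp.congr ?_ key
  exact CHp.and (CHp.of_PT (PT.comp (f := canT) PT_canT hparse)) CHp_ETR

theorem exists_mem_C : ∃ j : ℕ, ETR ∈ C j := by
  obtain ⟨j, hj⟩ := CHp_ETR3
  exact ⟨j, mem_C_of_InC j _ hj⟩

end Vale.Agent.P337Three
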