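import Mathlib

/-!
P337, second formulation.

* `FP`, `answers`, `PPWith`, `Level`: polynomial time, oracle computations with fair coins, the
  levels of the counting hierarchy;
* `MonoWord`, `PolyWord`, `FmlWord`, `TrueSentences`: existential sentences over the reals as
  words of a grammar, together with the set of real points which they define.
-/

namespace Vale.Agent.P337Two

/-! ### the counting hierarchy -/

/-- `f` is computed by a Turing machine in polynomial time -/
def FP (f : List Bool → List Bool) : Prop :=
  Nonempty (Turing.TM2ComputableInPolyTime (id : List Bool → List Bool) (id : List Bool → List Bool) f)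

/-- two words written as one: every bit of `x` twice, then `10`, then `y` -/
def join (x y : List Bool) : List Bool :=
  (x.flatMap fun b => [b, b]) ++ [true, false] ++ y

open Classical in
/-- the first `i` answers of the oracle `A` in the computation on the input `u`: every question is
computed by `ask` from `u` and the answers obtained before -/
noncomputable def answers (A : Set (List Bool)) (ask : List Bool → List Bool) (u : List Bool) :
    ℕ → List Bool
  | 0 => []
  | i + 1 => answers A ask u i ++ [decide (ask (join u (answers A ask u i)) ∈ A)]

/-- `L` is in the class `PP` relative to the oracle `A`: there is a polynomial time oracle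
computation (its questions are computed by `ask`, their number is `T(|x|)`, and it accepts if
`verdict`, from the input and all answers, computes the word `1`) which on the input `x` and
`m(|x|)` fair coins `y` accepts with probability greater than `1/2` exactly when `x ∈ L` -/
def PPWith (A L : Set (List Bool)) : Prop :=
  ∃ (ask verdict : List Bool → List Bool) (T m : Polynomial ℕ), FP ask ∧ FP verdict ∧
    ∀ x : List Bool, x ∈ L ↔
      (1 / 2 : ℚ) < (Nat.card {y : Fin (m.eval x.length) → Bool //
        verdict (join (join x (List.ofFn y))
          (answers A ask (join x (List.ofFn y)) (T.eval x.length))) = [true]} : ℚ) /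
            2 ^ m.eval x.length

/-- `Level j L`: the language `L` is in the level `C_j` of the counting hierarchy, where `C_0` is
`P` and `C_(j+1)` is the union of the classes `PP` relative to `A`, for `A` in `C_j` -/
inductive Level : ℕ → Set (List Bool) → Prop
  | base (f : List Bool → List Bool) (hf : FP f) : Level 0 {x | f x = [true]}
  | step (j : ℕ) (A L : Set (List Bool)) (hA : Level j A) (hL : PPWith A L) : Level (j + 1) L

/-! ### existential sentences over the reals -/

/-- the letters of the language -/
inductive Letter : Type
  | plus | minus | zero | one | tick | stop | isZero | isPos | neg | conj | disj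

/-- four bits for every letter -/
def Letter.bits : Letter → List Bool
  | plus => [false, false, false, false]
  | minus => [false, false, false, true]
  | zero => [false, false, true, false]
  | one => [false, false, true, true]
  | tick => [false, true, false, false]
  | stop => [false, true, false, true]
  | isZero => [false, true, true, false]
  | isPos => [false, true, true, true]
  | neg => [true, false, false, false]
  | conj => [true, false, false, true]
  | disj => [true, false, true, false]

/-- `MonoWord n w p`: the word `w` describes the monomial `p` in `n` variables. The word consists
of a sign, of the binary digits `d` of the absolute value of the coefficient (least significant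
digit first) and of exponents `e` of the first variables, in unary, each followed by the letter
`stop`; the variables which are not mentioned have the exponent `0`. -/
inductive MonoWord (n : ℕ) : List Letter → MvPolynomial (Fin n) ℤ → Prop
  | pos (d : List Bool) (e : List ℕ) (he : e.length ≤ n) :
      MonoWord n
        ([Letter.plus] ++ (d.map fun b => if b then Letter.one else Letter.zero) ++
          e.flatMap fun k => List.replicate k Letter.tick ++ [Letter.stop])
        (MvPolynomial.C (Nat.ofDigits 2 (d.map Bool.toNat) : ℤ) *
          ∏ i : Fin n, MvPolynomial.X i ^ e.getD i 0)
  | neg (d : List Bool) (e : List ℕ) (he : e.length ≤ n) :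
      MonoWord n
        ([Letter.minus] ++ (d.map fun b => if b then Letter.one else Letter.zero) ++
          e.flatMap fun k => List.replicate k Letter.tick ++ [Letter.stop])
        (MvPolynomial.C (-(Nat.ofDigits 2 (d.map Bool.toNat) : ℤ)) *
          ∏ i : Fin n, MvPolynomial.X i ^ e.getD i 0)

/-- `PolyWord n w p`: the word `w` is a list of monomials with the sum `p` -/
inductive PolyWord (n : ℕ) : List Letter → MvPolynomial (Fin n) ℤ → Prop
  | nil : PolyWord n [] 0
  | cons {v w : List Letter} {p q : MvPolynomial (Fin n) ℤ} (hp : MonoWord n v p)
      (hq : PolyWord n w q) : PolyWord n (v ++ w) (p + q)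

/-- `FmlWord n w S`: the word `w` is a quantifier free formula in `n` variables (with atoms
`p = 0` and `p > 0` and with NOT, AND, OR written after their arguments), and `S` is the set of
the points of `ℝ^n` at which it is true -/
inductive FmlWord (n : ℕ) : List Letter → Set (Fin n → ℝ) → Prop
  | isZero {w : List Letter} {p : MvPolynomial (Fin n) ℤ} (hp : PolyWord n w p) :
      FmlWord n (w ++ [Letter.isZero]) {x | MvPolynomial.aeval x p = 0}
  | isPos {w : List Letter} {p : MvPolynomial (Fin n) ℤ} (hp : PolyWord n w p) :
      FmlWord n (w ++ [Letter.isPos]) {x | 0 < MvPolynomial.aeval x p}
  | neg {w : List Letter} {S : Set (Fin n → ℝ)} (h : FmlWord n w S) :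
      FmlWord n (w ++ [Letter.neg]) Sᶜ
  | conj {v w : List Letter} {S T : Set (Fin n → ℝ)} (h : FmlWord n v S) (h' : FmlWord n w T) :
      FmlWord n (v ++ w ++ [Letter.conj]) (S ∩ T)
  | disj {v w : List Letter} {S T : Set (Fin n → ℝ)} (h : FmlWord n v S) (h' : FmlWord n w T) :
      FmlWord n (v ++ w ++ [Letter.disj]) (S ∪ T)

/-- the existential theory of the reals: the bit strings of the formulas, in any number `n` of
variables, which are true at some point of `ℝ^n` -/
def TrueSentences : Set (List Bool) :=
  {b | ∃ (n : ℕ) (w : List Letter) (S : Set (Fin n → ℝ)),
    b = w.flatMap Letter.bits ∧ FmlWord n w S ∧ S.Nonempty}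

end Vale.Agent.P337Two
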