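import Mathlib
import Vale.Agent.Lib.P337.Defs
import Vale.Agent.Lib.P337.TwoDefs

/-!
P337, second formulation: the two languages of true existential sentences are equal.
-/

namespace Vale.Agent.P337Two

open Vale.Agent.P337 (Sym Mono Poly Fml bval ETR)

/-- translation of letters -/
def Letter.toSym : Letter → Sym
  | plus => Sym.plus
  | minus => Sym.minus
  | zero => Sym.zero
  | one => Sym.one
  | tick => Sym.tick
  | stop => Sym.sep
  | isZero => Sym.eqz
  | isPos => Sym.pos
  | neg => Sym.not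
  | conj => Sym.and
  | disj => Sym.or

theorem code_toSym (l : Letter) : l.toSym.code = l.bits := by cases l <;> rfl

theorem flatMap_code (w : List Letter) :
    (w.map Letter.toSym).flatMap Sym.code = w.flatMap Letter.bits := by
  induction w with
  | nil => rfl
  | cons l w ih => simp only [List.map_cons, List.flatMap_cons, ih, code_toSym]

theorem bval_cast (d : List Bool) :
    ((Nat.ofDigits (2 : ℤ) (d.map Bool.toNat) : ℤ) : ℝ) = (bval d : ℝ) := by
  have h : (Nat.ofDigits (2 : ℤ) (d.map Bool.toNat) : ℤ) = ((bval d : ℕ) : ℤ) := by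
    induction d with
    | nil => rfl
    | cons b d ih =>
      have h2 : Nat.ofDigits (2 : ℤ) (b.toNat :: d.map Bool.toNat) =
          (b.toNat : ℤ) + 2 * Nat.ofDigits (2 : ℤ) (d.map Bool.toNat) := rfl
      rw [List.map_cons, h2, ih, bval]
      push_cast
      ring
  rw [h, Int.cast_natCast]

/-- restriction of a point to the first `n` coordinates -/
def res (n : ℕ) (x : ℕ → ℝ) : Fin n → ℝ := fun i => x i

theorem prod_exps (n : ℕ) (e : List ℕ) (he : e.length ≤ n) (x : ℕ → ℝ) :
    ∏ i ∈ Finset.range e.length, x i ^ e.getD i 0 = ∏ i : Fin n, res n x i ^ e.getD i 0 := by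
  have h1 : ∏ i : Fin n, res n x i ^ e.getD i 0 = ∏ i ∈ Finset.range n, x i ^ e.getD i 0 :=
    Fin.prod_univ_eq_prod_range (fun i => x i ^ e.getD i 0) n
  rw [h1]
  apply Finset.prod_subset
  · intro i hi
    rw [Finset.mem_range] at hi ⊢
    omega
  · intro i _ hi
    rw [Finset.mem_range, not_lt] at hi
    rw [List.getD_eq_default _ _ hi, pow_zero]

/-- the words of the exponents -/
theorem exps_word (e : List ℕ) :
    (e.flatMap fun k => List.replicate k Letter.tick ++ [Letter.stop]).map Letter.toSym =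
      e.flatMap fun k => List.replicate k Sym.tick ++ [Sym.sep] := by
  induction e with
  | nil => rfl
  | cons k e ih =>
    simp only [List.flatMap_cons, List.map_append, ih, List.map_replicate, List.map_cons,
      List.map_nil, Letter.toSym]

theorem digits_word (d : List Bool) :
    (d.map fun b => if b then Letter.one else Letter.zero).map Letter.toSym =
      d.map fun b => if b then Sym.one else Sym.zero := by
  rw [List.map_map]
  apply List.map_congr_left
  intro b _
  cases b <;> rfl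

theorem word_plus (d : List Bool) (e : List ℕ) :
    ([Letter.plus] ++ (d.map fun b => if b then Letter.one else Letter.zero) ++
      e.flatMap fun k => List.replicate k Letter.tick ++ [Letter.stop]).map Letter.toSym =
      Mono.word ⟨false, d, e⟩ := by
  rw [List.map_append, List.map_append, exps_word, digits_word]
  rfl

theorem word_minus (d : List Bool) (e : List ℕ) :
    ([Letter.minus] ++ (d.map fun b => if b then Letter.one else Letter.zero) ++
      e.flatMap fun k => List.replicate k Letter.tick ++ [Letter.stop]).map Letter.toSym =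
      Mono.word ⟨true, d, e⟩ := by
  rw [List.map_append, List.map_append, exps_word, digits_word]
  rfl

theorem aeval_const (n : ℕ) (c : ℤ) (z : Fin n → ℝ) :
    MvPolynomial.aeval z (MvPolynomial.C c : MvPolynomial (Fin n) ℤ) = (c : ℝ) := by
  rw [MvPolynomial.aeval_C, algebraMap_int_eq, eq_intCast]

theorem eval_plus (n : ℕ) (d : List Bool) (e : List ℕ) (he : e.length ≤ n) (x : ℕ → ℝ) :
    Mono.eval ⟨false, d, e⟩ x = MvPolynomial.aeval (res n x)
      (MvPolynomial.C (Nat.ofDigits 2 (d.map Bool.toNat) : ℤ) *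
          ∏ i : Fin n, MvPolynomial.X i ^ e.getD i 0 : MvPolynomial (Fin n) ℤ) := by
  rw [map_mul, aeval_const, bval_cast, map_prod]
  simp only [Mono.eval, map_pow, MvPolynomial.aeval_X, prod_exps n e he x]
  rw [if_neg Bool.false_ne_true, one_mul]

theorem eval_minus (n : ℕ) (d : List Bool) (e : List ℕ) (he : e.length ≤ n) (x : ℕ → ℝ) :
    Mono.eval ⟨true, d, e⟩ x = MvPolynomial.aeval (res n x)
      (MvPolynomial.C (-(Nat.ofDigits 2 (d.map Bool.toNat) : ℤ)) *
          ∏ i : Fin n, MvPolynomial.X i ^ e.getD i 0 : MvPolynomial (Fin n) ℤ) := by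
  rw [map_mul, aeval_const, Int.cast_neg, bval_cast, map_prod]
  simp only [Mono.eval, map_pow, MvPolynomial.aeval_X, prod_exps n e he x]
  rw [if_pos trivial, neg_one_mul]

/-! ### from words with values to formulas -/

theorem exists_mono {n : ℕ} {w : List Letter} {p : MvPolynomial (Fin n) ℤ} (h : MonoWord n w p) :
    ∃ m : Mono, m.word = w.map Letter.toSym ∧
      ∀ x, m.eval x = MvPolynomial.aeval (res n x) p := by
  cases h with
  | pos d e he => exact ⟨⟨false, d, e⟩, (word_plus d e).symm, fun x => eval_plus n d e he x⟩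
  | neg d e he => exact ⟨⟨true, d, e⟩, (word_minus d e).symm, fun x => eval_minus n d e he x⟩

theorem exists_poly {n : ℕ} {w : List Letter} {p : MvPolynomial (Fin n) ℤ} (h : PolyWord n w p) :
    ∃ P : Poly, Poly.word P = w.map Letter.toSym ∧
      ∀ x, Poly.eval P x = MvPolynomial.aeval (res n x) p := by
  induction h with
  | nil => exact ⟨[], rfl, fun x => by simp [Poly.eval]⟩
  | cons hp _ ih =>
    obtain ⟨m, hm, hm'⟩ := exists_mono hp
    obtain ⟨P, hP, hP'⟩ := ih
    refine ⟨m :: P, ?_, fun x => ?_⟩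
    · rw [List.map_append, ← hm, ← hP]
      rfl
    · rw [map_add, ← hm', ← hP']
      simp [Poly.eval]

theorem exists_fml {n : ℕ} {w : List Letter} {S : Set (Fin n → ℝ)} (h : FmlWord n w S) :
    ∃ φ : Fml, φ.word = w.map Letter.toSym ∧ ∀ x, φ.holds x ↔ res n x ∈ S := by
  induction h with
  | isZero hp =>
    obtain ⟨P, hP, hP'⟩ := exists_poly hp
    refine ⟨.eqz P, ?_, fun x => ?_⟩
    · rw [List.map_append, ← hP]
      rfl
    · rw [Set.mem_ofPred_eq, ← hP']
      rfl
  | isPos hp =>
    obtain ⟨P, hP, hP'⟩ := exists_poly hp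
    refine ⟨.pos P, ?_, fun x => ?_⟩
    · rw [List.map_append, ← hP]
      rfl
    · rw [Set.mem_ofPred_eq, ← hP']
      rfl
  | neg _ ih =>
    obtain ⟨φ, h1, h2⟩ := ih
    refine ⟨.not φ, ?_, fun x => ?_⟩
    · rw [List.map_append, ← h1]
      rfl
    · rw [Set.mem_compl_iff, ← h2]
      rfl
  | conj _ _ ih ih' =>
    obtain ⟨φ, h1, h2⟩ := ih
    obtain ⟨ψ, h3, h4⟩ := ih'
    refine ⟨.and φ ψ, ?_, fun x => ?_⟩
    · rw [List.map_append, List.map_append, ← h1, ← h3]
      rfl
    · rw [Set.mem_inter_iff, ← h2, ← h4]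
      rfl
  | disj _ _ ih ih' =>
    obtain ⟨φ, h1, h2⟩ := ih
    obtain ⟨ψ, h3, h4⟩ := ih'
    refine ⟨.or φ ψ, ?_, fun x => ?_⟩
    · rw [List.map_append, List.map_append, ← h1, ← h3]
      rfl
    · rw [Set.mem_union, ← h2, ← h4]
      rfl

/-! ### from formulas to words with values -/

theorem exists_monoWord (n : ℕ) (m : Mono) (hm : m.exps.length ≤ n) :
    ∃ (w : List Letter) (p : MvPolynomial (Fin n) ℤ), MonoWord n w p ∧
      w.map Letter.toSym = m.word ∧ ∀ x, m.eval x = MvPolynomial.aeval (res n x) p := by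
  obtain ⟨s, d, e⟩ := m
  cases s with
  | false => exact ⟨_, _, MonoWord.pos d e hm, word_plus d e, fun x => eval_plus n d e hm x⟩
  | true => exact ⟨_, _, MonoWord.neg d e hm, word_minus d e, fun x => eval_minus n d e hm x⟩

theorem exists_polyWord (P : Poly) : ∃ N, ∀ n, N ≤ n →
    ∃ (w : List Letter) (p : MvPolynomial (Fin n) ℤ), PolyWord n w p ∧
      w.map Letter.toSym = Poly.word P ∧
      ∀ x, Poly.eval P x = MvPolynomial.aeval (res n x) p := by
  induction P with
  | nil =>
    exact ⟨0, fun n _ => ⟨[], 0, PolyWord.nil, rfl, fun x => by simp [Poly.eval]⟩⟩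
  | cons m P ih =>
    obtain ⟨N, hN⟩ := ih
    refine ⟨max m.exps.length N, fun n hn => ?_⟩
    obtain ⟨v, p, h1, h2, h3⟩ := exists_monoWord n m ((le_max_left _ _).trans hn)
    obtain ⟨w, q, h4, h5, h6⟩ := hN n ((le_max_right _ _).trans hn)
    refine ⟨v ++ w, p + q, PolyWord.cons h1 h4, ?_, fun x => ?_⟩
    · rw [List.map_append, h2, h5]
      rfl
    · rw [map_add, ← h3, ← h6]
      simp [Poly.eval]

theorem exists_fmlWord (φ : Fml) : ∃ N, ∀ n, N ≤ n →
    ∃ (w : List Letter) (S : Set (Fin n → ℝ)), FmlWord n w S ∧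
      w.map Letter.toSym = φ.word ∧ ∀ x, φ.holds x ↔ res n x ∈ S := by
  induction φ with
  | eqz P =>
    obtain ⟨N, hN⟩ := exists_polyWord P
    refine ⟨N, fun n hn => ?_⟩
    obtain ⟨w, p, h1, h2, h3⟩ := hN n hn
    refine ⟨_, _, FmlWord.isZero h1, ?_, fun x => ?_⟩
    · rw [List.map_append, h2]
      rfl
    · rw [Set.mem_ofPred_eq, ← h3]
      rfl
  | pos P =>
    obtain ⟨N, hN⟩ := exists_polyWord P
    refine ⟨N, fun n hn => ?_⟩
    obtain ⟨w, p, h1, h2, h3⟩ := hN n hn
    refine ⟨_, _, FmlWord.isPos h1, ?_, fun x => ?_⟩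
    · rw [List.map_append, h2]
      rfl
    · rw [Set.mem_ofPred_eq, ← h3]
      rfl
  | not φ ih =>
    obtain ⟨N, hN⟩ := ih
    refine ⟨N, fun n hn => ?_⟩
    obtain ⟨w, S, h1, h2, h3⟩ := hN n hn
    refine ⟨_, _, FmlWord.neg h1, ?_, fun x => ?_⟩
    · rw [List.map_append, h2]
      rfl
    · rw [Set.mem_compl_iff, ← h3]
      rfl
  | and φ ψ ih ih' =>
    obtain ⟨N, hN⟩ := ih
    obtain ⟨M, hM⟩ := ih'
    refine ⟨max N M, fun n hn => ?_⟩
    obtain ⟨v, S, h1, h2, h3⟩ := hN n ((le_max_left _ _).trans hn)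
    obtain ⟨w, T, h4, h5, h6⟩ := hM n ((le_max_right _ _).trans hn)
    refine ⟨_, _, FmlWord.conj h1 h4, ?_, fun x => ?_⟩
    · rw [List.map_append, List.map_append, h2, h5]
      rfl
    · rw [Set.mem_inter_iff, ← h3, ← h6]
      rfl
  | or φ ψ ih ih' =>
    obtain ⟨N, hN⟩ := ih
    obtain ⟨M, hM⟩ := ih'
    refine ⟨max N M, fun n hn => ?_⟩
    obtain ⟨v, S, h1, h2, h3⟩ := hN n ((le_max_left _ _).trans hn)
    obtain ⟨w, T, h4, h5, h6⟩ := hM n ((le_max_right _ _).trans hn)
    refine ⟨_, _, FmlWord.disj h1 h4, ?_, fun x => ?_⟩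
    · rw [List.map_append, List.map_append, h2, h5]
      rfl
    · rw [Set.mem_union, ← h3, ← h6]
      rfl

/-- every point is the restriction of a sequence -/
theorem exists_res (n : ℕ) (z : Fin n → ℝ) : ∃ x : ℕ → ℝ, res n x = z :=
  ⟨fun i => if h : i < n then z ⟨i, h⟩ else 0, by
    funext i
    simp [res]⟩

theorem trueSentences_eq : TrueSentences = ETR := by
  apply Set.ext
  intro b
  constructor
  · rintro ⟨n, w, S, rfl, hw, z, hz⟩
    obtain ⟨φ, h1, h2⟩ := exists_fml hw
    obtain ⟨x, hx⟩ := exists_res n z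
    refine ⟨φ, ?_, x, (h2 x).2 (hx ▸ hz)⟩
    rw [Fml.bits, h1, flatMap_code]
  · rintro ⟨φ, rfl, x, hx⟩
    obtain ⟨N, hN⟩ := exists_fmlWord φ
    obtain ⟨w, S, h1, h2, h3⟩ := hN N le_rfl
    refine ⟨N, w, S, ?_, h1, res N x, (h3 x).1 hx⟩
    rw [Fml.bits, ← h2, flatMap_code]

end Vale.Agent.P337Two
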