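import Mathlib
import Vale.Agent.Lib.P337.Final
import Vale.Agent.Lib.P337.TwoDefs
import Vale.Agent.Lib.P337.TwoEtr

/-!
P337, second formulation: the typed levels are contained in the levels.
-/

namespace Vale.Agent.P337Two

open Vale.Agent.P337 (pair cnt cnt_take InC CHp_ETR level_exists_bound exists_unpair ETR)
open Vale.Agent.Lib.Common.PolyTime

theorem fp_of_PT {f : List Bool → List Bool} (hf : PT f) : FP f :=
  Vale.Agent.P337.polyTime_of_PT hf

theorem join_eq (x y : List Bool) : join x y = pair x y := by
  simp [join, pair]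

theorem card_ofFn (m : ℕ) (P : List Bool → Prop) :
    Nat.card {y : Fin m → Bool // P (List.ofFn y)} = cnt m P := by
  unfold cnt
  apply Nat.card_congr
  refine Equiv.ofBijective (fun y => ⟨List.ofFn y.1, List.length_ofFn, y.2⟩) ⟨?_, ?_⟩
  · intro y z h
    exact Subtype.ext (List.ofFn_injective (Subtype.ext_iff.1 h))
  · rintro ⟨w, h, hw⟩
    subst h
    have h2 : List.ofFn (fun i : Fin w.length => w[i]) = w := List.ofFn_getElem
    refine ⟨⟨fun i => w[i], ?_⟩, ?_⟩
    · rw [h2]
      exact hw
    · exact Subtype.ext h2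

/-- a machine which asks one question, its input, and accepts if the answer is positive -/
theorem verdict_one {u : List Bool → List Bool × List Bool}
    (hu : ∀ x y, u (pair x y) = (x, y)) (O : Set (List Bool)) (w : List Bool) :
    (u (join w (answers O (fun v => (u v).1) w 1))).2 = [true] ↔ w ∈ O := by
  classical
  have h0 : (fun v : List Bool => (u v).1) (join w []) = w := by
    rw [join_eq]
    exact congrArg Prod.fst (hu w [])
  have h1 : answers O (fun v => (u v).1) w 1 =
      [@decide ((fun v : List Bool => (u v).1) (join w []) ∈ O) (Classical.propDecidable _)] := rfl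
  rw [join_eq, hu]
  show answers O (fun v => (u v).1) w 1 = [true] ↔ w ∈ O
  rw [h1, List.singleton_inj, decide_eq_true_iff, h0]

theorem ratio_iff (m c : ℕ) : (1 / 2 : ℚ) < (c : ℚ) / 2 ^ m ↔ 2 ^ m < 2 * c := by
  rw [div_lt_div_iff₀ (by norm_num) (by positivity), one_mul]
  constructor
  · intro h
    have h2 : ((2 ^ m : ℕ) : ℚ) < ((2 * c : ℕ) : ℚ) := by
      push_cast
      linarith
    exact_mod_cast h2
  · intro h
    have h2 : ((2 ^ m : ℕ) : ℚ) < ((2 * c : ℕ) : ℚ) := by exact_mod_cast h
    push_cast at h2
    linarith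

theorem level_of_InC (j : ℕ) : ∀ A : List Bool → Prop, InC j A →
    Level j {w : List Bool | A w} := by
  induction j with
  | zero =>
    rintro A ⟨f, hf, hA⟩
    have h : {w : List Bool | A w} = {x | (fun w => [f w]) x = [true]} := by
      apply Set.ext
      intro w
      rw [Set.mem_ofPred_eq, Set.mem_ofPred_eq, hA w]
      simp
    rw [h]
    exact Level.base _ (fp_of_PT (PT.cons hf (PT.const [])))
  | succ j ih =>
    rintro A ⟨l, B, hl, hB, hA⟩
    obtain ⟨u, hu, hu'⟩ := exists_unpair
    obtain ⟨m, hm⟩ := level_exists_bound hl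
    have hf : PT (fun v : List Bool => ((u v).1, (u v).2.take (l (u v).1))) :=
      PT.pair (PT.fst hu) (PT.take (PT.snd hu) (PT.comp hl (PT.fst hu)))
    have hO := ih _ (hB.pre hf)
    refine Level.step j _ _ hO ⟨fun v => (u v).1, fun v => (u v).2, Polynomial.C 1, m,
      fp_of_PT (PT.fst hu), fp_of_PT (PT.snd hu), fun x => ?_⟩
    rw [Set.mem_ofPred_eq, hA x, ratio_iff]
    obtain ⟨d, hd⟩ := Nat.exists_eq_add_of_le (hm x)
    have h1 : Nat.card {y : Fin (m.eval x.length) → Bool //
        (u (join (join x (List.ofFn y)) (answers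
          {w : List Bool | B ((u w).1, (u w).2.take (l (u w).1))}
            (fun v => (u v).1) (join x (List.ofFn y))
              ((Polynomial.C 1 : Polynomial ℕ).eval x.length)))).2 = [true]} =
        cnt (m.eval x.length) (fun y => B (x, y.take (l x))) := by
      rw [← card_ofFn]
      congr 1
      congr 1
      funext y
      rw [Polynomial.eval_C, verdict_one hu', Set.mem_ofPred_eq, join_eq, hu']
    rw [h1, hd, cnt_take (l x) d (fun y => B (x, y)), pow_add]
    have h2 : (0 : ℕ) < 2 ^ d := by positivity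
    constructor
    · intro h
      calc 2 ^ l x * 2 ^ d < (2 * cnt (l x) fun y => B (x, y)) * 2 ^ d :=
            Nat.mul_lt_mul_of_pos_right h h2
        _ = 2 * (2 ^ d * cnt (l x) fun y => B (x, y)) := by ring
    · intro h
      have h3 : 2 ^ l x * 2 ^ d < (2 * cnt (l x) fun y => B (x, y)) * 2 ^ d := by
        calc 2 ^ l x * 2 ^ d < 2 * (2 ^ d * cnt (l x) fun y => B (x, y)) := h
          _ = (2 * cnt (l x) fun y => B (x, y)) * 2 ^ d := by ring
      exact Nat.lt_of_mul_lt_mul_right h3

theorem exists_level_trueSentences : ∃ j, Level j TrueSentences := by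
  obtain ⟨j, hj⟩ := CHp_ETR
  refine ⟨j, ?_⟩
  rw [trueSentences_eq]
  exact level_of_InC j _ hj

end Vale.Agent.P337Two
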